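import Vale.Agent.Results.P302.Gap56over45
import Vale.Agent.P302.Dual

/-!
# P302: a bin packing instance with `OPT = 15`, `LP = 619/45`, so `OPT - LP = 56/45` exactly

The statement uses only notions of Mathlib.  The instance `I` is the explicit list of 41 rational
sizes.  The optimum is stated as the least element of the set of the numbers of bins of packings,
the LP value as the least element (the minimum is attained) of the set of the values of the feasible
solutions of the Gilmore-Gomory configuration LP.  The lower bound for the LP comes from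
an explicit dual solution (prices in units of `1/360`), whose feasibility is certified by a table of
knapsack bounds.
-/

namespace Vale.Agent.Results.P302.ExactGap56over45

open Vale.Agent.P302

/-- the instance: 41 items, the sizes are the listed numerators divided by `2880` -/
def I : List ℚ :=
  ([2220, 2220, 2218, 2214, 2206, 2184, 2182, 1444, 1440, 1248, 1248, 1240, 992, 976, 964, 948,
    944, 928, 828, 828, 828, 820, 816, 808, 728, 716, 351, 351, 351, 351, 349, 348, 347, 334,
    334, 333, 331, 331, 330, 328, 320] : List ℕ).map fun x : ℕ => (x : ℚ) / 2880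

/-- the dual prices of the sizes in units of `1/360` -/
def prices : List (ℕ × ℕ) :=
  [(2220, 324), (2218, 320), (2214, 316), (2206, 312), (2184, 300), (2182, 296), (1444, 198),
    (1440, 180), (1248, 162), (1240, 156), (992, 120), (976, 120), (964, 120), (948, 120),
    (944, 120), (928, 120), (828, 108), (820, 102), (816, 99), (808, 96), (728, 90), (716, 81),
    (351, 36), (349, 32), (348, 30), (347, 28), (334, 24), (333, 22), (331, 20), (330, 18),
    (328, 16), (320, 12)]

/-- the price of a numerator -/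
def yN (x : ℕ) : ℕ := (prices.lookup x).getD 0

/-- entry `v`: a lower bound for the total size of a multiset of items of total price at least
`v / 360` -/
def tbl : List ℕ :=
  [0, 320, 320, 320, 320, 320, 320, 320, 320, 320, 320, 320, 320, 328, 328, 328, 328, 330, 330,
    331, 331, 333, 333, 334, 334, 347, 347, 347, 347, 348, 348, 349, 349, 351, 351, 351, 351, 661,
    661, 662, 662, 664, 664, 665, 665, 667, 667, 668, 668, 679, 679, 679, 679, 681, 681, 682, 682,
    684, 684, 685, 685, 697, 697, 698, 698, 699, 699, 700, 700, 702, 702, 702, 702, 716, 716, 716,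
    716, 716, 716, 716, 716, 716, 728, 728, 728, 728, 728, 728, 728, 728, 728, 808, 808, 808, 808,
    808, 808, 816, 816, 816, 820, 820, 820, 828, 828, 828, 828, 828, 828, 928, 928, 928, 928, 928,
    928, 928, 928, 928, 928, 928, 928, 1077, 1077, 1079, 1079, 1079, 1079, 1157, 1157, 1159, 1159,
    1159, 1159, 1167, 1167, 1167, 1171, 1171, 1171, 1177, 1177, 1179, 1179, 1179, 1179, 1240, 1240,
    1240, 1240, 1240, 1240, 1240, 1240, 1240, 1240, 1240, 1240, 1248, 1248, 1248, 1248, 1248, 1248,
    1440, 1440, 1440, 1440, 1440, 1440, 1440, 1440, 1440, 1440, 1440, 1440, 1440, 1440, 1440, 1440,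
    1440, 1440, 1444, 1444, 1444, 1444, 1444, 1444, 1444, 1444, 1444, 1444, 1444, 1444, 1444, 1444,
    1444, 1444, 1444, 1444, 1636, 1636, 1636, 1636, 1636, 1636, 1644, 1644, 1644, 1648, 1648, 1648,
    1656, 1656, 1656, 1656, 1656, 1656, 1744, 1744, 1744, 1748, 1748, 1748, 1756, 1756, 1756, 1756,
    1756, 1756, 1793, 1793, 1795, 1795, 1795, 1795, 1856, 1856, 1856, 1856, 1856, 1856, 1964, 1964,
    1964, 1968, 1968, 1968, 1976, 1976, 1976, 1976, 1976, 1976, 2056, 2056, 2056, 2056, 2056, 2056,
    2064, 2064, 2064, 2068, 2068, 2068, 2076, 2076, 2076, 2076, 2076, 2076, 2160, 2160, 2160, 2160,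
    2160, 2160, 2160, 2160, 2160, 2172, 2172, 2172, 2172, 2172, 2172, 2172, 2172, 2172, 2182, 2182,
    2182, 2182, 2182, 2182, 2182, 2182, 2184, 2184, 2184, 2184, 2206, 2206, 2206, 2206, 2206, 2206,
    2206, 2206, 2206, 2206, 2206, 2206, 2214, 2214, 2214, 2214, 2218, 2218, 2218, 2218, 2220, 2220,
    2220, 2220, 2530, 2530, 2531, 2531, 2532, 2532, 2533, 2533, 2535, 2535, 2535, 2535, 2547, 2547,
    2548, 2548, 2550, 2550, 2551, 2551, 2553, 2553, 2554, 2554, 2565, 2565, 2565, 2565, 2568, 2568,
    2569, 2569, 2571, 2571, 2571, 2571, 2881]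

theorem I_eq : I = inst 2880 Gap56over45.items := by
  unfold I inst Gap56over45.items
  norm_num

set_option maxRecDepth 100000 in
theorem table_step : ∀ x ∈ Gap56over45.items, ∀ v ∈ List.range (360 + 2),
    tabW tbl 360 (yN x + v) ≤ tabW tbl 360 v + x := by
  decide +kernel

theorem result :
    (∀ q ∈ I, 0 < q ∧ q ≤ 1) ∧
    IsLeast {k : ℕ | ∃ bins : List (List ℚ),
      bins.length = k ∧ bins.flatten.Perm I ∧ ∀ b ∈ bins, b.sum ≤ 1} 15 ∧
    IsLeast {v : ℝ | ∃ z : Multiset ℚ →₀ ℝ,
      (∀ c, 0 ≤ z c) ∧
      (∀ c ∈ z.support, (∀ σ ∈ c, σ ∈ I) ∧ c.sum ≤ 1) ∧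
      (∀ σ ∈ I, (I.count σ : ℝ) ≤ z.sum fun c w => (c.count σ : ℝ) * w) ∧
      v = z.sum fun _ w => w} (619 / 45) ∧
    (15 : ℝ) - 619 / 45 = 56 / 45 ∧ (6 / 5 : ℝ) < 56 / 45 := by
  rw [I_eq]
  obtain ⟨h1, h2, -, -⟩ := Gap56over45.result
  refine ⟨h1, ⟨?_, ?_⟩, ⟨?_, ?_⟩, by norm_num, by norm_num⟩
  · have hne : {k | Packable (inst 2880 Gap56over45.items) k}.Nonempty :=
      ⟨_, packable_length _ (fun x hx => (h1 x hx).2)⟩
    have := Nat.sInf_mem hne
    change Packable _ (OPT _) at this
    rw [h2] at this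
    exact this
  · intro k hk
    have : OPT (inst 2880 Gap56over45.items) ≤ k := OPT_le _ _ hk
    rwa [h2] at this
  · obtain ⟨z, hz, hv⟩ := exists_fracSol_of_pats 2880 90 (by norm_num) (by norm_num)
      Gap56over45.items Gap56over45.pats (by decide) (by decide) (by decide)
    refine ⟨z, hz.1, hz.2.1, hz.2.2, ?_⟩
    rw [hv]
    have : (Gap56over45.pats.map fun p => p.2).sum = 1238 := by decide
    rw [this]
    norm_num
  · rintro v ⟨z, hz1, hz2, hz3, rfl⟩
    have := le_of_dual 2880 360 (by norm_num) (by norm_num) Gap56over45.items yN tbl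
      (by decide) table_step (by decide) z ⟨hz1, hz2, hz3⟩
    have e : (Gap56over45.items.map yN).sum = 4952 := by decide
    rw [e] at this
    norm_num at this ⊢
    linarith

end Vale.Agent.Results.P302.ExactGap56over45
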