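import Vale.Agent.P302.Bridge

/-!
# P302: a bin packing instance with `OPT - LP ≥ 29/24 > 77/64 > 6/5`

The instance has 26 items with sizes `x / 720`.  It cannot be packed into 9 bins (verified
exhaustive search, evaluated by the kernel), it can be packed into 10 bins, and an explicit
fractional solution of the configuration LP has value `211/24`.
-/

namespace Vale.Agent.Results.P302.Gap29over24

open Vale.Agent.P302

/-- the numerators of the 26 item sizes (common denominator `720`) -/
def items : List ℕ :=
  [556, 552, 546, 361, 360, 308, 308, 306, 283, 248, 237, 236, 210, 210, 207, 206, 203, 182, 179,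
    88, 88, 87, 83, 83, 82, 78]

/-- a packing into ten bins -/
def bins : List (List ℕ) :=
  [[556, 88], [552, 88, 78], [546, 87, 83], [361, 308], [360, 308], [306, 283, 83],
    [248, 237, 210], [236, 210, 207], [206, 203, 182, 82], [179]]

/-- a fractional solution: configurations with their weights in units of `1/24` -/
def pats : List (List ℕ × ℕ) :=
  [([360, 360], 12), ([237, 237, 237], 8), ([361, 182, 88, 88], 7), ([552, 83, 83], 12),
    ([546, 87, 87], 12), ([556, 82, 82], 12), ([556, 83, 78], 12), ([283, 210, 210], 12),
    ([361, 308], 5), ([306, 207, 207], 8), ([308, 308, 88], 9), ([210, 210, 210, 88], 1),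
    ([552, 88, 78], 12), ([361, 179, 179], 12), ([308, 210, 182], 5), ([283, 248, 182], 12),
    ([546, 88, 83], 12), ([306, 210, 203], 16), ([308, 206, 206], 12), ([248, 236, 236], 12),
    ([308, 207, 203], 8)]

set_option maxRecDepth 100000 in
theorem search_false : bfs 720 1000000000 items [(0, List.replicate 9 720)] = false := by
  decide +kernel

theorem result :
    (∀ q ∈ inst 720 items, 0 < q ∧ q ≤ 1) ∧ OPT (inst 720 items) = 10 ∧
      LP (inst 720 items) ≤ 211 / 24 ∧
      (29 / 24 : ℝ) ≤ (OPT (inst 720 items) : ℝ) - LP (inst 720 items) := by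
  obtain ⟨h1, h2, h3⟩ := certificate 720 24 (by norm_num) (by norm_num) items
    1000000000 9 (by decide) search_false bins rfl (by decide) (by decide) pats
    (by decide) (by decide) (by decide)
  have h4 : (((pats.map fun p => p.2).sum : ℕ) : ℝ) / (24 : ℕ) = 211 / 24 := by
    have : (pats.map fun p => p.2).sum = 211 := by decide
    rw [this]
    norm_num
  rw [h4] at h3
  refine ⟨h1, h2, h3, ?_⟩
  rw [h2]
  push_cast
  linarith

end Vale.Agent.Results.P302.Gap29over24
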