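import Vale.Agent.P302.Compose

/-!
# P302: a bin packing instance with `OPT - LP ≥ 56/45`

The instance has 41 items with sizes `x / 2880`.  It cannot be packed into 14 bins, it can be packed
into 15 bins, and an explicit fractional solution of the configuration LP has value
`619/45`.  The non-packability is proved by the composition lemma: the 7 big items lie in different
bins, no item of `mids` fits beside a big item, at most 12 of the 15 small items fit beside the big items,
and `mids` together with 3 items of size 320 cannot be packed into 7 bins (two exhaustive searches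
evaluated by the kernel).
-/

namespace Vale.Agent.Results.P302.Gap56over45

open Vale.Agent.P302

/-- the numerators of the big items -/
def bigs : List ℕ :=
    [2220, 2220, 2218, 2214, 2206, 2184, 2182]

/-- the numerators of the items of middle size -/
def mids : List ℕ :=
    [1444, 1440, 1248, 1248, 1240, 992, 976, 964, 948, 944, 928, 828, 828, 828, 820, 816, 808,
    728, 716]

/-- the numerators of the small items -/
def smalls : List ℕ :=
    [351, 351, 351, 351, 349, 348, 347, 334, 334, 333, 331, 331, 330, 328, 320]

/-- the numerators of the 41 item sizes (common denominator `2880`) -/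
def items : List ℕ :=
    [2220, 2220, 2218, 2214, 2206, 2184, 2182, 1444, 1440, 1248, 1248, 1240, 992, 976, 964, 948,
    944, 928, 828, 828, 828, 820, 816, 808, 728, 716, 351, 351, 351, 351, 349, 348, 347, 334,
    334, 333, 331, 331, 330, 328, 320]

/-- a packing into 15 bins -/
def bins : List (List ℕ) :=
    [[2220, 351], [2220, 351], [2218, 351], [2214, 351], [2206, 349, 320], [2184, 348, 347],
    [2182, 334, 334], [1444, 1248], [1440, 1248], [1240, 992, 333], [976, 964, 928], [948, 944,
    828], [828, 828, 820, 331], [816, 808, 728, 331], [716, 330, 328]]

/-- a fractional solution: configurations with their weights in units of `1/90` -/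
def pats : List (List ℕ × ℕ) :=
    [([2220, 351], 65), ([2218, 331, 331], 45), ([1444, 1248], 6), ([2184, 349, 347], 30),
    ([2220, 331, 328], 45), ([2206, 351, 320], 65), ([1248, 1248, 351], 24), ([1440, 1440], 45),
    ([1248, 828, 728], 51), ([1240, 820, 820], 30), ([964, 964, 948], 45), ([976, 976, 928], 45),
    ([992, 944, 944], 45), ([992, 948, 928], 45), ([1248, 816, 816], 45), ([1248, 820, 808], 30),
    ([2184, 348, 348], 45), ([1240, 828, 808], 60), ([1444, 728, 351, 351], 39), ([1444, 716,
    716], 45), ([828, 828, 828, 351], 53), ([2214, 333, 333], 45), ([2214, 334, 331], 45),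
    ([2220, 330, 330], 45), ([2182, 349, 349], 30), ([2182, 351, 347], 60), ([2218, 334, 328],
    45), ([2184, 351, 334], 15), ([2206, 334, 334], 25), ([2220, 334, 320], 25)]

theorem items_eq : items = bigs ++ (mids ++ smalls) := by decide

set_option maxRecDepth 100000 in
theorem search_smalls : bfs 699 1000000000 smalls
    [(0, bigs.map (fun b => 2880 - b) ++ List.replicate (3 - 1) 351)] = false := by
  decide +kernel

set_option maxRecDepth 100000 in
theorem search_mids : bfs 2880 1000000000 (mids ++ List.replicate 3 320)
    [(0, List.replicate 7 2880)] = false := by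
  decide +kernel

theorem result :
    (∀ q ∈ inst 2880 items, 0 < q ∧ q ≤ 1) ∧ OPT (inst 2880 items) = 15 ∧
      LP (inst 2880 items) ≤ 619 / 45 ∧
      (56 / 45 : ℝ) ≤ (OPT (inst 2880 items) : ℝ) - LP (inst 2880 items) := by
  obtain ⟨h1, h2, h3⟩ := certificate2 2880 90 (by norm_num) (by norm_num) 699 1000000000 320 351 3 7
    bigs mids smalls (by decide) (by decide) (by decide) (by norm_num) (by decide)
    search_smalls search_mids bins rfl (by decide) (by decide) pats
    (by decide) (by decide) (by decide)
  rw [← items_eq] at h1 h2 h3
  have h4 : (((pats.map fun p => p.2).sum : ℕ) : ℝ) / (90 : ℕ) = 619 / 45 := by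
    have : (pats.map fun p => p.2).sum = 1238 := by decide
    rw [this]
    norm_num
  rw [h4] at h3
  have h5 : OPT (inst 2880 items) = 15 := h2
  refine ⟨h1, h5, h3, ?_⟩
  rw [h5]
  push_cast
  linarith

end Vale.Agent.Results.P302.Gap56over45
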