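import Vale.Agent.Results.P302.Gap56over45

/-!
# P302: a bin packing instance with `OPT = 15` and a fractional configuration solution of value
`619/45`, stated with Mathlib notions only
-/

namespace Vale.Agent.Results.P302.PlainGap

open Vale.Agent.P302 Vale.Agent.Results.P302.Gap56over45

/-- the explicit fractional solution behind `LP_le_of_pats` -/
theorem exists_fracSol (L D : ℕ) (hL : 0 < L) (hD : 0 < D) (items : List ℕ)
    (pats : List (List ℕ × ℕ)) (hmem : ∀ p ∈ pats, ∀ x ∈ p.1, x ∈ items)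
    (hcap : ∀ p ∈ pats, p.1.sum ≤ L)
    (hcov : ∀ x ∈ items, D * items.count x ≤ (pats.map fun p => p.1.count x * p.2).sum) :
    ∃ z : Multiset ℚ →₀ ℝ, IsFracSol (inst L items) z ∧
      (z.sum fun _ w => w) = (((pats.map fun p => p.2).sum : ℕ) : ℝ) / D := by
  have hLq : (0 : ℚ) < L := by exact_mod_cast hL
  have hDr : (0 : ℝ) < D := by exact_mod_cast hD
  have hsol : IsFracSol (inst L items) (zOf (patsOf L D pats)) := by
    refine ⟨zOf_nonneg _ ?_, ?_, ?_⟩
    · intro p hp
      obtain ⟨q, -, rfl⟩ := List.mem_map.1 hp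
      positivity
    · intro c hc
      obtain ⟨p, hp, rfl⟩ := zOf_support _ c hc
      obtain ⟨q, hq, rfl⟩ := List.mem_map.1 hp
      refine ⟨?_, ?_⟩
      · intro σ hσ
        rw [Multiset.mem_coe] at hσ
        obtain ⟨x, hx, rfl⟩ := List.mem_map.1 hσ
        exact mem_inst.2 ⟨x, hmem q hq x hx, rfl⟩
      · rw [Multiset.sum_coe, sum_map_div, div_le_one hLq]
        exact_mod_cast hcap q hq
    · intro σ hσ
      obtain ⟨x, hx, rfl⟩ := mem_inst.1 hσ
      rw [zOf_sum (fun c w => (c.count ((x : ℚ) / L) : ℝ) * w) (fun c => mul_zero _)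
        (fun c w w' => mul_add _ _ _)]
      rw [sum_patsOf L D (fun l => l.count x) (fun c => (c.count ((x : ℚ) / L) : ℝ))]
      · rw [inst, List.count_map_of_injective _ _ (div_injective L hL), le_div_iff₀ hDr]
        have := hcov x hx
        have h2 : ((D * items.count x : ℕ) : ℝ)
            ≤ (((pats.map fun p => p.1.count x * p.2).sum : ℕ) : ℝ) := by exact_mod_cast this
        push_cast at h2 ⊢
        linarith
      · intro l
        rw [Multiset.coe_count, List.count_map_of_injective _ _ (div_injective L hL)]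
  refine ⟨_, hsol, ?_⟩
  rw [zOf_sum (fun _ w => w) (fun _ => rfl) (fun _ _ _ => rfl)]
  have := sum_patsOf L D (fun _ => 1) (fun _ => 1) (fun _ => by simp) pats
  simpa using this

theorem result :
    ∃ a : List ℚ, a.length = 41 ∧ (∀ q ∈ a, 0 < q ∧ q ≤ 1) ∧
      (∀ bins : List (List ℚ), bins.flatten.Perm a → (∀ b ∈ bins, b.sum ≤ 1) →
        15 ≤ bins.length) ∧
      (∃ bins : List (List ℚ), bins.length = 15 ∧ bins.flatten.Perm a ∧ ∀ b ∈ bins, b.sum ≤ 1) ∧
      ∃ z : Multiset ℚ →₀ ℝ, (∀ c, 0 ≤ z c) ∧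
        (∀ c ∈ z.support, (∀ σ ∈ c, σ ∈ a) ∧ c.sum ≤ 1) ∧
        (∀ σ ∈ a, (a.count σ : ℝ) ≤ z.sum fun c w => (c.count σ : ℝ) * w) ∧
        (z.sum fun _ w => w) = 619 / 45 := by
  obtain ⟨h1, h2, -, -⟩ := Vale.Agent.Results.P302.Gap56over45.result
  obtain ⟨z, hz, hzs⟩ := exists_fracSol 2880 90 (by norm_num) (by norm_num) items pats
    (by decide) (by decide) (by decide)
  have h4 : (((pats.map fun p => p.2).sum : ℕ) : ℝ) / (90 : ℕ) = 619 / 45 := by
    have : (pats.map fun p => p.2).sum = 1238 := by decide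
    rw [this]
    norm_num
  refine ⟨inst 2880 items, by simp [inst, items], h1, ?_, ?_, z, hz.1, hz.2.1, hz.2.2, ?_⟩
  · intro bins hperm hsum
    by_contra hlt
    have hmem : bins.length ∈ {k | Packable (inst 2880 items) k} := ⟨bins, rfl, hperm, hsum⟩
    have := Nat.sInf_le hmem
    have h2' : sInf {k | Packable (inst 2880 items) k} = 15 := h2
    omega
  · have hne : {k | Packable (inst 2880 items) k}.Nonempty :=
      ⟨_, packable_length _ (fun x hx => (h1 x hx).2)⟩
    have hm := Nat.sInf_mem hne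
    have h2' : sInf {k | Packable (inst 2880 items) k} = 15 := h2
    rw [h2'] at hm
    exact hm
  · rw [hzs, h4]

end Vale.Agent.Results.P302.PlainGap
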